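import Vale.Agent.P297.H697.Main
import Vale.Agent.P297.H230.Split

/-!
The theorem in terms of elliptic quotients.
-/

open CategoryTheory AlgebraicGeometry IntermediateField Polynomial

namespace Vale.Agent.P297.H697

open Vale.Agent.P297 Vale.Agent.P297.H839 Vale.Agent.P297.H516 Vale.Agent.P297.H878
  Vale.Agent.P297.Gen Vale.Agent.P297.H230

variable {K : Type} [Field K] [Algebra ℂ K]

theorem two_le_of_trace (F : IntermediateField ℂ K) (hF : FiniteDimensional F K) {z : K}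
    (hz : z ≠ 0) (ht : Algebra.trace F K z = 0) : 2 ≤ Module.finrank F K := by
  have p : 0 < Module.finrank F K := Module.finrank_pos
  by_contra hlt
  have h1 : Module.finrank F K = 1 := by omega
  have h2 : F = ⊤ := IntermediateField.finrank_eq_one_iff_eq_top.1 h1
  have h3 : z ∈ F := by
    rw [h2]
    trivial
  have h4 := Algebra.trace_algebraMap (S := K) (⟨z, h3⟩ : F)
  rw [h1, one_smul] at h4
  have h5 : Algebra.trace F K z = (⟨z, h3⟩ : F) := h4
  rw [ht] at h5
  exact hz (congrArg Subtype.val h5).symm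

theorem toQuotient {l x y : K} {f : (IntermediateField.adjoin ℂ {l})[X]} (h : Pencil l x y f)
    {F : IntermediateField ℂ K} {a : (IntermediateField.adjoin ℂ {l})[X]}
    (hq : EllipticQuotient l x y F a) (ha : aeval x a ≠ 0) {z : K}
    (hz : z ≠ 0) (ht : Algebra.trace F K z = 0) :
    RationalQuotient l x y F (Module.finrank F K) a :=
  ⟨hq.rational, hq.mem, gen_of_form h ha hq, rfl, two_le_of_trace F hq.fin hz ht, hq.form⟩

/-- **Zero-cycles and pencils of curves of genus two with split Jacobian.** -/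
theorem split {l x y : K} {f : (IntermediateField.adjoin ℂ {l})[X]} (h : Pencil l x y f)
    (F₁ F₂ : IntermediateField ℂ K) {a₁ a₂ : (IntermediateField.adjoin ℂ {l})[X]}
    (h₁ : EllipticQuotient l x y F₁ a₁) (h₂ : EllipticQuotient l x y F₂ a₂)
    (heven : Even (Module.finrank F₁ K + Module.finrank F₂ K))
    (ha₁ : a₁.natDegree ≤ 1) (ha₂ : a₂.natDegree ≤ 1)
    (hd : a₁.coeff 0 * a₂.coeff 1 - a₁.coeff 1 * a₂.coeff 0 ≠ 0)
    (htr₁ : Algebra.trace F₁ K (aeval x a₂ / aeval x a₁) = 0)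
    (htr₂ : Algebra.trace F₂ K (aeval x a₁ / aeval x a₂) = 0)
    (K₀ : Type) [Field K₀] [Algebra ℂ K₀] (e : K₀ →ₐ[ℂ] K) :
    TorsionPoints 2 K₀ ∧ (IsDouble K₀ → PointsEquivalent K₀) := by
  obtain ⟨ht, hxt⟩ := (pair_iff l x).1 h.ind
  have z₁ : aeval x a₁ ≠ 0 := lin_ne hxt (by
    rintro rfl
    simp at hd)
  have z₂ : aeval x a₂ ≠ 0 := lin_ne hxt (by
    rintro rfl
    simp at hd)
  have q₁ := toQuotient h h₁ z₁ (div_ne_zero z₂ z₁) htr₁
  have q₂ := toQuotient h h₂ z₂ (div_ne_zero z₁ z₂) htr₂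
  exact ⟨general h F₁ F₂ q₁ q₂ heven ha₁ ha₂ hd htr₁ htr₂ K₀ e,
    general_one h F₁ F₂ q₁ q₂ heven ha₁ ha₂ hd htr₁ htr₂ K₀ e⟩

end Vale.Agent.P297.H697
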