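import Mathlib.FieldTheory.IsAlgClosed.AlgebraicClosure
import Mathlib.FieldTheory.Perfect
import Mathlib.Algebra.Polynomial.Derivative
import Mathlib.Tactic.FieldSimp
import Mathlib.Tactic.LinearCombination

/-!
Squarefree sextics under a Moebius change of the variable.
-/

open Polynomial

namespace Vale.Agent.P297.H697

section

variable {k : Type} [Field k]

/-- `∑ cᵢ (p₂ - p₁ X)ⁱ (q₁ X - q₂)ⁿ⁻ⁱ` -/
noncomputable def hom (c : ℕ → k) (p₁ q₁ p₂ q₂ : k) (n : ℕ) : k[X] :=
  ∑ i ∈ Finset.range (n + 1), C (c i) * (C p₂ - C p₁ * X) ^ i * (C q₁ * X - C q₂) ^ (n - i)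

theorem natDegree_hom_le (c : ℕ → k) (p₁ q₁ p₂ q₂ : k) (n : ℕ) :
    (hom c p₁ q₁ p₂ q₂ n).natDegree ≤ n := by
  unfold hom
  refine natDegree_sum_le_of_forall_le _ _ fun i hi => ?_
  rw [Finset.mem_range] at hi
  have h1 : (C p₂ - C p₁ * X : k[X]).natDegree ≤ 1 := by
    refine (natDegree_sub_le _ _).trans ?_
    rw [natDegree_C, Nat.zero_max]
    exact (natDegree_C_mul_le _ _).trans natDegree_X_le
  have h2 : (C q₁ * X - C q₂ : k[X]).natDegree ≤ 1 := by
    refine (natDegree_sub_le _ _).trans ?_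
    rw [natDegree_C, Nat.max_zero]
    exact (natDegree_C_mul_le _ _).trans natDegree_X_le
  refine natDegree_mul_le.trans ?_
  have h3 : (C (c i) * (C p₂ - C p₁ * X) ^ i : k[X]).natDegree ≤ i := by
    refine (natDegree_C_mul_le _ _).trans (natDegree_pow_le.trans ?_)
    calc i * (C p₂ - C p₁ * X : k[X]).natDegree ≤ i * 1 := Nat.mul_le_mul_left _ h1
      _ = i := mul_one i
  have h4 : ((C q₁ * X - C q₂) ^ (n - i) : k[X]).natDegree ≤ n - i := by
    refine natDegree_pow_le.trans ?_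
    calc (n - i) * (C q₁ * X - C q₂ : k[X]).natDegree ≤ (n - i) * 1 := Nat.mul_le_mul_left _ h2
      _ = n - i := mul_one _
  omega

theorem aeval_hom {B : Type} [Field B] [Algebra k B] (c : ℕ → k) (p₁ q₁ p₂ q₂ : k) (n : ℕ)
    (r : B) (hv : algebraMap k B q₁ * r - algebraMap k B q₂ ≠ 0) :
    aeval r (hom c p₁ q₁ p₂ q₂ n) = (algebraMap k B q₁ * r - algebraMap k B q₂) ^ n *
      ∑ i ∈ Finset.range (n + 1), algebraMap k B (c i) *
        ((algebraMap k B p₂ - algebraMap k B p₁ * r) /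
          (algebraMap k B q₁ * r - algebraMap k B q₂)) ^ i := by
  unfold hom
  rw [map_sum, Finset.mul_sum]
  refine Finset.sum_congr rfl fun i hi => ?_
  rw [Finset.mem_range] at hi
  simp only [map_mul, map_pow, map_sub, aeval_C, aeval_X]
  generalize algebraMap k B q₁ * r - algebraMap k B q₂ = v at hv
  have h1 : v ^ n = v ^ i * v ^ (n - i) := (pow_mul_pow_sub _ (by omega)).symm
  rw [div_pow, h1]
  have h2 := pow_ne_zero i hv
  field_simp

theorem six_explicit (f : k[X]) (hf : f.natDegree ≤ 6) :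
    f = C (f.coeff 0) + C (f.coeff 1) * X + C (f.coeff 2) * X ^ 2 + C (f.coeff 3) * X ^ 3 +
      C (f.coeff 4) * X ^ 4 + C (f.coeff 5) * X ^ 5 + C (f.coeff 6) * X ^ 6 := by
  conv_lhs => rw [as_sum_range_C_mul_X_pow' f (show f.natDegree < 7 by omega)]
  simp only [Finset.sum_range_succ, Finset.sum_range_zero, pow_zero, mul_one, zero_add, pow_one]

theorem hom_six (c : ℕ → k) (p₁ q₁ p₂ q₂ : k) : hom c p₁ q₁ p₂ q₂ 6 =
    C (c 0) * (C q₁ * X - C q₂) ^ 6 + C (c 1) * (C p₂ - C p₁ * X) * (C q₁ * X - C q₂) ^ 5 +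
    C (c 2) * (C p₂ - C p₁ * X) ^ 2 * (C q₁ * X - C q₂) ^ 4 +
    C (c 3) * (C p₂ - C p₁ * X) ^ 3 * (C q₁ * X - C q₂) ^ 3 +
    C (c 4) * (C p₂ - C p₁ * X) ^ 4 * (C q₁ * X - C q₂) ^ 2 +
    C (c 5) * (C p₂ - C p₁ * X) ^ 5 * (C q₁ * X - C q₂) +
    C (c 6) * (C p₂ - C p₁ * X) ^ 6 := by
  unfold hom
  simp only [Finset.sum_range_succ, Finset.sum_range_zero, pow_zero, mul_one, zero_add, pow_one,
    Nat.sub_zero, Nat.sub_self]
  norm_num

theorem aeval_six {B : Type} [Field B] [Algebra k B] (f : k[X]) (hf : f.natDegree ≤ 6) (s : B) :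
    aeval s f = algebraMap k B (f.coeff 0) + algebraMap k B (f.coeff 1) * s +
      algebraMap k B (f.coeff 2) * s ^ 2 + algebraMap k B (f.coeff 3) * s ^ 3 +
      algebraMap k B (f.coeff 4) * s ^ 4 + algebraMap k B (f.coeff 5) * s ^ 5 +
      algebraMap k B (f.coeff 6) * s ^ 6 := by
  conv_lhs => rw [six_explicit f hf]
  simp only [map_add, map_mul, map_pow, aeval_C, aeval_X]

theorem aeval_der_six {B : Type} [Field B] [Algebra k B] (f : k[X]) (hf : f.natDegree ≤ 6)
    (s : B) : aeval s (derivative f) = algebraMap k B (f.coeff 1) +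
      2 * algebraMap k B (f.coeff 2) * s + 3 * algebraMap k B (f.coeff 3) * s ^ 2 +
      4 * algebraMap k B (f.coeff 4) * s ^ 3 + 5 * algebraMap k B (f.coeff 5) * s ^ 4 +
      6 * algebraMap k B (f.coeff 6) * s ^ 5 := by
  conv_lhs => rw [six_explicit f hf]
  simp only [derivative_add, derivative_mul, derivative_C, derivative_X, derivative_X_pow,
    zero_mul, zero_add, map_add, map_mul, map_pow, aeval_C, aeval_X, map_natCast, mul_one]
  push_cast
  ring

theorem aeval_hom_six {B : Type} [Field B] [Algebra k B] (c : ℕ → k) (p₁ q₁ p₂ q₂ : k) (r : B) :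
    aeval r (hom c p₁ q₁ p₂ q₂ 6) =
      algebraMap k B (c 0) * (algebraMap k B q₁ * r - algebraMap k B q₂) ^ 6 +
      algebraMap k B (c 1) * (algebraMap k B p₂ - algebraMap k B p₁ * r) *
        (algebraMap k B q₁ * r - algebraMap k B q₂) ^ 5 +
      algebraMap k B (c 2) * (algebraMap k B p₂ - algebraMap k B p₁ * r) ^ 2 *
        (algebraMap k B q₁ * r - algebraMap k B q₂) ^ 4 +
      algebraMap k B (c 3) * (algebraMap k B p₂ - algebraMap k B p₁ * r) ^ 3 *
        (algebraMap k B q₁ * r - algebraMap k B q₂) ^ 3 +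
      algebraMap k B (c 4) * (algebraMap k B p₂ - algebraMap k B p₁ * r) ^ 4 *
        (algebraMap k B q₁ * r - algebraMap k B q₂) ^ 2 +
      algebraMap k B (c 5) * (algebraMap k B p₂ - algebraMap k B p₁ * r) ^ 5 *
        (algebraMap k B q₁ * r - algebraMap k B q₂) +
      algebraMap k B (c 6) * (algebraMap k B p₂ - algebraMap k B p₁ * r) ^ 6 := by
  rw [hom_six]
  simp only [map_add, map_mul, map_pow, map_sub, aeval_C, aeval_X]

theorem aeval_der_hom_six {B : Type} [Field B] [Algebra k B] (c : ℕ → k) (p₁ q₁ p₂ q₂ : k)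
    (r : B) :
    aeval r (derivative (hom c p₁ q₁ p₂ q₂ 6)) =
      algebraMap k B (c 0) * (6 * (algebraMap k B q₁ * r - algebraMap k B q₂) ^ 5 *
        algebraMap k B q₁) +
      algebraMap k B (c 1) * (- algebraMap k B p₁ *
        (algebraMap k B q₁ * r - algebraMap k B q₂) ^ 5 +
        (algebraMap k B p₂ - algebraMap k B p₁ * r) *
        (5 * (algebraMap k B q₁ * r - algebraMap k B q₂) ^ 4 * algebraMap k B q₁)) +
      algebraMap k B (c 2) * (2 * (algebraMap k B p₂ - algebraMap k B p₁ * r) *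
        (- algebraMap k B p₁) * (algebraMap k B q₁ * r - algebraMap k B q₂) ^ 4 +
        (algebraMap k B p₂ - algebraMap k B p₁ * r) ^ 2 *
        (4 * (algebraMap k B q₁ * r - algebraMap k B q₂) ^ 3 * algebraMap k B q₁)) +
      algebraMap k B (c 3) * (3 * (algebraMap k B p₂ - algebraMap k B p₁ * r) ^ 2 *
        (- algebraMap k B p₁) * (algebraMap k B q₁ * r - algebraMap k B q₂) ^ 3 +
        (algebraMap k B p₂ - algebraMap k B p₁ * r) ^ 3 *
        (3 * (algebraMap k B q₁ * r - algebraMap k B q₂) ^ 2 * algebraMap k B q₁)) +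
      algebraMap k B (c 4) * (4 * (algebraMap k B p₂ - algebraMap k B p₁ * r) ^ 3 *
        (- algebraMap k B p₁) * (algebraMap k B q₁ * r - algebraMap k B q₂) ^ 2 +
        (algebraMap k B p₂ - algebraMap k B p₁ * r) ^ 4 *
        (2 * (algebraMap k B q₁ * r - algebraMap k B q₂) * algebraMap k B q₁)) +
      algebraMap k B (c 5) * (5 * (algebraMap k B p₂ - algebraMap k B p₁ * r) ^ 4 *
        (- algebraMap k B p₁) * (algebraMap k B q₁ * r - algebraMap k B q₂) +
        (algebraMap k B p₂ - algebraMap k B p₁ * r) ^ 5 * algebraMap k B q₁) +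
      algebraMap k B (c 6) * (6 * (algebraMap k B p₂ - algebraMap k B p₁ * r) ^ 5 *
        (- algebraMap k B p₁)) := by
  rw [hom_six]
  simp only [derivative_add, derivative_mul, derivative_sub, derivative_C, derivative_X,
    derivative_pow, zero_mul, zero_add, map_add, map_mul, map_pow, map_sub, aeval_C, aeval_X,
    map_natCast, mul_one, map_zero]
  push_cast
  ring

/-- a separable sextic stays separable -/
theorem hom_separable (f : k[X]) (hf : f.natDegree ≤ 6) (h5 : 5 ≤ f.natDegree)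
    (hs : f.Separable) {p₁ q₁ p₂ q₂ : k} (hd : p₁ * q₂ - q₁ * p₂ ≠ 0) :
    (hom f.coeff p₁ q₁ p₂ q₂ 6).Separable := by
  have hs' : ∀ s : AlgebraicClosure k, aeval s f ≠ 0 ∨ aeval s (derivative f) ≠ 0 :=
    (isCoprime_iff_aeval_ne_zero_of_isAlgClosed k (AlgebraicClosure k) f (derivative f)).1 hs
  unfold Polynomial.Separable
  rw [isCoprime_iff_aeval_ne_zero_of_isAlgClosed k (AlgebraicClosure k)]
  intro r
  by_contra hcon
  push Not at hcon
  obtain ⟨h1, h2⟩ := hcon
  rw [aeval_hom_six] at h1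
  rw [aeval_der_hom_six] at h2
  set φ := algebraMap k (AlgebraicClosure k) with hφ
  set u := φ p₂ - φ p₁ * r with hu
  set v := φ q₁ * r - φ q₂ with hv
  have hd' : φ p₁ * φ q₂ - φ q₁ * φ p₂ ≠ 0 := by
    rw [← map_mul, ← map_mul, ← map_sub]
    intro h0
    exact hd ((map_eq_zero φ).1 h0)
  have hδ : φ p₁ * φ q₂ - φ q₁ * φ p₂ = - φ p₁ * v - φ q₁ * u := by
    rw [hu, hv]; ring
  by_cases hv0 : v = 0
  · -- the point at infinity
    have hu0 : u ≠ 0 := by
      intro h0
      rw [hδ, hv0, h0] at hd'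
      apply hd'
      ring
    have hq : φ q₁ ≠ 0 := by
      intro h0
      rw [hδ, hv0, h0] at hd'
      apply hd'
      ring
    rw [hv0] at h1 h2
    have h6 : f.coeff 6 = 0 := by
      have h3 : φ (f.coeff 6) * u ^ 6 = 0 := by
        rw [← h1]; ring
      rcases mul_eq_zero.1 h3 with h4 | h4
      · exact (map_eq_zero φ).1 h4
      · exact absurd (pow_eq_zero_iff (by norm_num) |>.1 h4) hu0
    have h5' : f.coeff 5 = 0 := by
      rw [h6, map_zero] at h2
      have h3 : φ (f.coeff 5) * u ^ 5 * φ q₁ = 0 := by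
        rw [← h2]
        ring
      rcases mul_eq_zero.1 h3 with h4 | h4
      · rcases mul_eq_zero.1 h4 with h4 | h4
        · exact (map_eq_zero φ).1 h4
        · exact absurd (pow_eq_zero_iff (by norm_num) |>.1 h4) hu0
      · exact absurd h4 hq
    have h7 : f.natDegree = 5 ∨ f.natDegree = 6 := by omega
    have h8 : f ≠ 0 := by
      rintro rfl
      simp at h5
    have h9 : f.leadingCoeff ≠ 0 := leadingCoeff_ne_zero.2 h8
    rcases h7 with h7 | h7
    · rw [leadingCoeff, h7] at h9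
      exact h9 h5'
    · rw [leadingCoeff, h7] at h9
      exact h9 h6
  · have hval : aeval (u / v) f = 0 := by
      rw [aeval_six f hf, ← hφ]
      have h3 : v ^ 6 * (φ (f.coeff 0) + φ (f.coeff 1) * (u / v) + φ (f.coeff 2) * (u / v) ^ 2 +
          φ (f.coeff 3) * (u / v) ^ 3 + φ (f.coeff 4) * (u / v) ^ 4 +
          φ (f.coeff 5) * (u / v) ^ 5 + φ (f.coeff 6) * (u / v) ^ 6) = 0 := by
        rw [← h1]
        field_simp
      rcases mul_eq_zero.1 h3 with h4 | h4
      · exact absurd (pow_eq_zero_iff (by norm_num) |>.1 h4) hv0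
      · exact h4
    have hder : aeval (u / v) (derivative f) = 0 := by
      have h0 := hval
      rw [aeval_six f hf, ← hφ] at h0
      rw [aeval_der_six f hf, ← hφ]
      have h3 : v ^ 4 * (φ p₁ * φ q₂ - φ q₁ * φ p₂) *
          (φ (f.coeff 1) + 2 * φ (f.coeff 2) * (u / v) + 3 * φ (f.coeff 3) * (u / v) ^ 2 +
            4 * φ (f.coeff 4) * (u / v) ^ 3 + 5 * φ (f.coeff 5) * (u / v) ^ 4 +
            6 * φ (f.coeff 6) * (u / v) ^ 5) = 0 := by
        rw [hδ]
        have h5 : v ^ 4 * (-φ p₁ * v - φ q₁ * u) *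
          (φ (f.coeff 1) + 2 * φ (f.coeff 2) * (u / v) + 3 * φ (f.coeff 3) * (u / v) ^ 2 +
            4 * φ (f.coeff 4) * (u / v) ^ 3 + 5 * φ (f.coeff 5) * (u / v) ^ 4 +
            6 * φ (f.coeff 6) * (u / v) ^ 5) +
            (φ (f.coeff 0) + φ (f.coeff 1) * (u / v) + φ (f.coeff 2) * (u / v) ^ 2 +
          φ (f.coeff 3) * (u / v) ^ 3 + φ (f.coeff 4) * (u / v) ^ 4 +
          φ (f.coeff 5) * (u / v) ^ 5 + φ (f.coeff 6) * (u / v) ^ 6) * (6 * v ^ 5 * φ q₁) = 0 := by
          rw [← h2]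
          field_simp
          ring
        rw [h0, zero_mul, add_zero] at h5
        exact h5
      rcases mul_eq_zero.1 h3 with h4 | h4
      · rcases mul_eq_zero.1 h4 with h5 | h5
        · exact absurd (pow_eq_zero_iff (by norm_num) |>.1 h5) hv0
        · exact absurd h5 hd'
      · exact h4
    rcases hs' (u / v) with h3 | h3
    · exact h3 hval
    · exact h3 hder

/-- the degree does not drop below five -/
theorem hom_five [Infinite k] (f : k[X]) (hf : f.natDegree ≤ 6) (h5 : 5 ≤ f.natDegree)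
    (hs : Squarefree f) {p₁ q₁ p₂ q₂ : k} (hd : p₁ * q₂ - q₁ * p₂ ≠ 0) :
    5 ≤ (hom f.coeff p₁ q₁ p₂ q₂ 6).natDegree := by
  by_contra hcon
  push Not at hcon
  set F := hom f.coeff p₁ q₁ p₂ q₂ 6 with hF
  set w : k[X] := C p₁ + C q₁ * X with hw
  set G : k[X] := ∑ i ∈ Finset.range 5, C (F.coeff i) * (C p₂ + C q₂ * X) ^ i * w ^ (4 - i)
    with hG
  have hw0 : w ≠ 0 := by
    intro h0
    have h1 : p₁ = 0 := by
      have := congrArg (fun p : k[X] => p.coeff 0) h0
      simpa [hw] using this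
    have h2 : q₁ = 0 := by
      have := congrArg (fun p : k[X] => p.coeff 1) h0
      simpa [hw] using this
    apply hd
    rw [h1, h2]
    ring
  have key : w * (C ((p₁ * q₂ - q₁ * p₂) ^ 6) * f) = w * (w ^ 2 * G) := by
    apply Polynomial.funext
    intro r
    simp only [eval_mul, eval_pow, eval_C]
    by_cases hr : w.eval r = 0
    · rw [hr, zero_mul, zero_mul]
    · congr 1
      have hwr : w.eval r = p₁ + q₁ * r := by simp [hw]
      rw [hwr] at hr
      have hG' : G.eval r = ∑ i ∈ Finset.range 5, F.coeff i * (p₂ + q₂ * r) ^ i *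
          (p₁ + q₁ * r) ^ (4 - i) := by
        rw [hG, eval_finsetSum]
        refine Finset.sum_congr rfl fun i _ => ?_
        rw [eval_mul, eval_mul, eval_pow, eval_pow, hwr]
        simp
      set z := (p₂ + q₂ * r) / (p₁ + q₁ * r) with hz
      have hv : q₁ * z - q₂ = -(p₁ * q₂ - q₁ * p₂) / (p₁ + q₁ * r) := by
        rw [hz]
        field_simp
        ring
      have hv0 : q₁ * z - q₂ ≠ 0 := by
        rw [hv]
        exact div_ne_zero (neg_ne_zero.2 hd) hr
      have e0 : z * (p₁ + q₁ * r) = p₂ + q₂ * r := div_mul_cancel₀ _ hr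
      have hu : (p₂ - p₁ * z) / (q₁ * z - q₂) = r := by
        rw [div_eq_iff hv0]
        apply mul_right_cancel₀ hr
        linear_combination (-p₁ - r * q₁) * e0
      have e1 : aeval z F = (q₁ * z - q₂) ^ 6 * ∑ i ∈ Finset.range (6 + 1), f.coeff i *
          ((p₂ - p₁ * z) / (q₁ * z - q₂)) ^ i :=
        aeval_hom (B := k) f.coeff p₁ q₁ p₂ q₂ 6 z hv0
      rw [hu] at e1
      have e2 : f.eval r = ∑ i ∈ Finset.range (6 + 1), f.coeff i * r ^ i :=
        eval_eq_sum_range' (by omega) r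
      rw [← e2] at e1
      have e3 : aeval z F = ∑ i ∈ Finset.range 5, F.coeff i * z ^ i := by
        rw [coe_aeval_eq_eval]
        exact eval_eq_sum_range' hcon z
      rw [e3, hv] at e1
      have e4 : (p₁ + q₁ * r) ^ 2 * G.eval r = (p₁ + q₁ * r) ^ 6 *
          ∑ i ∈ Finset.range 5, F.coeff i * z ^ i := by
        rw [hG', Finset.mul_sum, Finset.mul_sum]
        refine Finset.sum_congr rfl fun i hi => ?_
        rw [Finset.mem_range] at hi
        have h1 : (p₁ + q₁ * r) ^ 4 = (p₁ + q₁ * r) ^ i * (p₁ + q₁ * r) ^ (4 - i) :=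
          (pow_mul_pow_sub _ (by omega)).symm
        have h2 : (p₁ + q₁ * r) ^ 6 = (p₁ + q₁ * r) ^ 2 * ((p₁ + q₁ * r) ^ i *
            (p₁ + q₁ * r) ^ (4 - i)) := by
          rw [← h1]
          ring
        rw [h2, hz, div_pow]
        have h3 := pow_ne_zero i hr
        field_simp
      rw [hwr, e4, e1, div_pow]
      have h3 := pow_ne_zero 6 hr
      field_simp
  have key' := mul_left_cancel₀ hw0 key
  have hC : (C ((p₁ * q₂ - q₁ * p₂) ^ 6) : k[X]) ≠ 0 := C_ne_zero.2 (pow_ne_zero 6 hd)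
  have hf2 : f = C (((p₁ * q₂ - q₁ * p₂) ^ 6)⁻¹) * (w ^ 2 * G) := by
    rw [← key', ← mul_assoc, ← C_mul, inv_mul_cancel₀ (pow_ne_zero 6 hd), C_1, one_mul]
  have hdvd : w * w ∣ f := by
    rw [hf2]
    exact ⟨C (((p₁ * q₂ - q₁ * p₂) ^ 6)⁻¹) * G, by ring⟩
  have hunit := hs w hdvd
  have hdeg := natDegree_eq_zero_of_isUnit hunit
  have hq : q₁ = 0 := by
    by_contra h0
    have h1 : w.natDegree = 1 := by
      rw [hw, add_comm]
      exact natDegree_linear h0
    omega
  have hwC : w = C p₁ := by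
    rw [hw, hq, C_0, zero_mul, add_zero]
  have hG4 : G.natDegree ≤ 4 := by
    rw [hG]
    refine natDegree_sum_le_of_forall_le _ _ fun i hi => ?_
    rw [Finset.mem_range] at hi
    have h2 : (C p₂ + C q₂ * X : k[X]).natDegree ≤ 1 := by
      refine (natDegree_add_le _ _).trans ?_
      rw [natDegree_C, Nat.zero_max]
      exact (natDegree_C_mul_le _ _).trans natDegree_X_le
    rw [hwC, ← C_pow]
    refine (natDegree_mul_C_le _ _).trans ?_
    refine (natDegree_C_mul_le _ _).trans (natDegree_pow_le.trans ?_)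
    calc i * (C p₂ + C q₂ * X : k[X]).natDegree ≤ i * 1 := Nat.mul_le_mul_left _ h2
      _ ≤ 4 := by omega
  have hfin : f.natDegree ≤ 4 := by
    rw [hf2]
    refine (natDegree_C_mul_le _ _).trans ?_
    rw [hwC, ← C_pow]
    exact (natDegree_C_mul_le _ _).trans hG4
  omega

end

end Vale.Agent.P297.H697
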