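import Vale.Agent.P297.H697.Sub
import Vale.Agent.P297.H697.Moeb

/-!
Zero-cycles on pencils of curves of genus two with split Jacobian: arbitrary coordinates.
-/

set_option linter.unusedSectionVars false
set_option linter.style.haveILetI false

open CategoryTheory AlgebraicGeometry IntermediateField Polynomial

namespace Vale.Agent.P297.H697

open Vale.Agent.P297 Vale.Agent.P297.H839 Vale.Agent.P297.H516 Vale.Agent.P297.H878
  Vale.Agent.P297.Gen

section

variable {K : Type} [Field K] [Algebra ℂ K]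

theorem der_aeval {k : IntermediateField ℂ K} {N : Type} [Field N] [Algebra K N]
    (D : Derivation ℤ N N) (hD : ∀ a : k, D (algebraMap K N a) = 0)
    (P : k[X]) (z : K) : D (algebraMap K N (aeval z P)) =
      algebraMap K N (aeval z (derivative P)) * D (algebraMap K N z) := by
  induction P using Polynomial.induction_on' with
  | add p q hp hq =>
    rw [map_add, map_add, map_add, derivative_add, map_add, map_add, hp, hq, add_mul]
  | monomial n a =>
    rw [aeval_monomial, derivative_monomial, aeval_monomial, map_mul, map_pow,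
      Derivation.leibniz, Derivation.leibniz_pow]
    have h1 : D (algebraMap K N (algebraMap k K a)) = 0 := hD a
    rw [h1]
    simp only [smul_eq_mul, nsmul_eq_mul, mul_zero, add_zero, map_mul, map_natCast, map_pow]
    ring

theorem der_div {N : Type} [Field N] (D : Derivation ℤ N N) {a b : N} (hb : b ≠ 0) :
    D (a / b) = (D a * b - a * D b) / b ^ 2 := by
  have h1 : D (a / b * b) = D a := by rw [div_mul_cancel₀ _ hb]
  rw [Derivation.leibniz, smul_eq_mul, smul_eq_mul] at h1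
  rw [eq_div_iff (pow_ne_zero 2 hb), ← h1]
  field_simp
  ring

variable {k : IntermediateField ℂ K} {x : K}

/-- a linear form does not vanish at `x` -/
theorem lin_ne (hxt : Transcendental k x) {a : k[X]} (ha : a ≠ 0) : aeval x a ≠ 0 :=
  fun h0 => hxt ⟨a, ha, h0⟩

theorem lin_eq {a : k[X]} (ha : a.natDegree ≤ 1) :
    aeval x a = (a.coeff 1 : K) * x + (a.coeff 0 : K) := by
  conv_lhs => rw [eq_X_add_C_of_natDegree_le_one ha]
  simp only [map_add, map_mul, aeval_C, aeval_X]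
  rfl

/-- the data of the change of the variable -/
structure Change (k : IntermediateField ℂ K) (x A₁ A₂ x' v : K) (p₁ q₁ p₂ q₂ δ : k) : Prop where
  hA₁ : A₁ = (q₁ : K) * x + p₁
  hA₂ : A₂ = (q₂ : K) * x + p₂
  n₁ : A₁ ≠ 0
  n₂ : A₂ ≠ 0
  hδ : (δ : K) = p₁ * q₂ - q₁ * p₂
  hδ0 : (δ : K) ≠ 0
  hx' : x' = A₂ / A₁
  hv : v = (q₁ : K) * x' - q₂

variable {A₁ A₂ x' v : K} {p₁ q₁ p₂ q₂ δ : k}

theorem Change.mul (h : Change k x A₁ A₂ x' v p₁ q₁ p₂ q₂ δ) : x' * A₁ = A₂ := by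
  rw [h.hx']
  exact div_mul_cancel₀ _ h.n₁

theorem Change.vA (h : Change k x A₁ A₂ x' v p₁ q₁ p₂ q₂ δ) : v * A₁ = -δ := by
  have h1 := h.mul
  have h2 := h.hA₁
  have h3 := h.hA₂
  have h4 := h.hδ
  have h5 := h.hv
  rw [h5, h4]
  linear_combination (q₁ : K) * h1 + (q₁ : K) * h3 - (q₂ : K) * h2

theorem Change.v0 (h : Change k x A₁ A₂ x' v p₁ q₁ p₂ q₂ δ) : v ≠ 0 := by
  intro h0
  have h1 := h.vA
  rw [h0, zero_mul] at h1
  exact h.hδ0 (neg_eq_zero.1 h1.symm)

theorem Change.back (h : Change k x A₁ A₂ x' v p₁ q₁ p₂ q₂ δ) :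
    ((p₂ : K) - p₁ * x') / v = x := by
  rw [div_eq_iff h.v0]
  apply mul_right_cancel₀ h.n₁
  have h3 : x * v * A₁ = -(x * δ) := by
    rw [mul_assoc, h.vA]
    ring
  rw [h3, h.hδ]
  have h1 := h.mul
  have h2 := h.hA₁
  have h4 := h.hA₂
  linear_combination (-(p₁ : K)) * h1 + (p₂ : K) * h2 - (p₁ : K) * h4

theorem Change.sub (h : Change k x A₁ A₂ x' v p₁ q₁ p₂ q₂ δ) (P : k[X]) (n : ℕ)
    (hP : P.natDegree < n + 1) :
    aeval x' (hom P.coeff p₁ q₁ p₂ q₂ n) = v ^ n * aeval x P := by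
  have hv0 : algebraMap k K q₁ * x' - algebraMap k K q₂ ≠ 0 := by
    have h1 := h.v0
    rw [h.hv] at h1
    exact h1
  rw [aeval_hom P.coeff p₁ q₁ p₂ q₂ n x' hv0, aeval_eq_sum_range' hP x]
  have h1 : algebraMap k K q₁ * x' - algebraMap k K q₂ = v := h.hv.symm
  have h2 : (algebraMap k K p₂ - algebraMap k K p₁ * x') / v = x := h.back
  rw [h1, h2]
  rfl

theorem Change.mem (h : Change k x A₁ A₂ x' v p₁ q₁ p₂ q₂ δ) (T : IntermediateField ℂ K)
    (hkT : k ≤ T) (hx'T : x' ∈ T) : v ∈ T ∧ x ∈ T := by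
  have hvT : v ∈ T := by
    rw [h.hv]
    exact T.sub_mem (T.mul_mem (hkT q₁.2) hx'T) (hkT q₂.2)
  refine ⟨hvT, ?_⟩
  rw [← h.back]
  exact T.div_mem (T.sub_mem (hkT p₂.2) (T.mul_mem (hkT p₁.2) hx'T)) hvT

theorem Change.transc (h : Change k x A₁ A₂ x' v p₁ q₁ p₂ q₂ δ) (hxt : Transcendental k x) :
    Transcendental k x' := by
  intro halg
  apply hxt
  have h1 := h.back
  rw [h.hv] at h1
  rw [← h1, div_eq_mul_inv]
  exact ((isAlgebraic_algebraMap p₂).sub ((isAlgebraic_algebraMap p₁).mul halg)).mul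
    (((isAlgebraic_algebraMap q₁).mul halg).sub (isAlgebraic_algebraMap q₂)).inv

/-- a derivation over `k` with values in an algebraically closed field -/
theorem exists_der (hxt : Transcendental k x) :
    ∃ (N : Type) (_ : Field N) (_ : Algebra K N) (D : Derivation ℤ N N),
      (∀ a : k, D (algebraMap K N a) = 0) ∧ D (algebraMap K N x) = 1 := by
  suffices H : ∀ (N : Type) [Field N] [Algebra ℂ N] [Algebra K N] [IsScalarTower ℂ K N]
      [IsAlgClosed N], ∃ D : Derivation ℤ N N,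
        (∀ a : k, D (algebraMap K N a) = 0) ∧ D (algebraMap K N x) = 1 by
    obtain ⟨D, h1, h2⟩ := H (AlgebraicClosure K)
    exact ⟨AlgebraicClosure K, _, _, D, h1, h2⟩
  intro N _ _ _ _ _
  let j : K →ₐ[ℂ] N := IsScalarTower.toAlgHom ℂ K N
  have hw : ¬ IsAlgebraic (k.map j) (j x) := by
    intro h1
    have h2 : IsAlgebraic k (j x) := by
      refine alg_mono (IntermediateField.equivMap k j).symm.toRingEquiv.toRingHom ?_
        (IntermediateField.equivMap k j).symm.injective h1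
      intro a
      have h3 := IntermediateField.coe_equivMap_apply k j
        ((IntermediateField.equivMap k j).symm a)
      rw [AlgEquiv.apply_symm_apply] at h3
      exact h3.symm
    exact hxt ((isAlgebraic_algebraMap_iff (algebraMap K N).injective).1 h2)
  obtain ⟨D, hD, hDx⟩ := exists_derivation (k.map j) hw
  exact ⟨D, fun a => hD _ ⟨a, a.2, rfl⟩, hDx⟩

/-- the derivative of the new coordinate -/
theorem Change.der (h : Change k x A₁ A₂ x' v p₁ q₁ p₂ q₂ δ) {N : Type} [Field N] [Algebra K N]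
    (D : Derivation ℤ N N) (hDk : ∀ a : k, D (algebraMap K N a) = 0)
    (hDx : D (algebraMap K N x) = 1) :
    D (algebraMap K N x') = algebraMap K N (δ / A₁ ^ 2) := by
  have hDA₁ : D (algebraMap K N A₁) = algebraMap K N q₁ := by
    rw [h.hA₁, map_add, map_add, map_mul, Derivation.leibniz, hDk, hDk, hDx]
    simp
  have hDA₂ : D (algebraMap K N A₂) = algebraMap K N q₂ := by
    rw [h.hA₂, map_add, map_add, map_mul, Derivation.leibniz, hDk, hDk, hDx]
    simp
  have hj1 : algebraMap K N A₁ ≠ 0 := fun h0 => h.n₁ ((map_eq_zero _).1 h0)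
  rw [h.hx', map_div₀, der_div D hj1, hDA₁, hDA₂, map_div₀, map_pow]
  congr 1
  rw [h.hδ, h.hA₁, h.hA₂]
  simp only [map_sub, map_add, map_mul]
  ring

/-- the quotient of the derivatives -/
theorem Change.quot (h : Change k x A₁ A₂ x' v p₁ q₁ p₂ q₂ δ) (hxt : Transcendental k x) (y : K)
    (F : IntermediateField ℂ K) (hkF : k ≤ F) (b : K) (hb : b ≠ 0)
    (hform : ∃ P Q : k[X], aeval x Q ≠ 0 ∧
      aeval x (derivative P * Q - P * derivative Q) ≠ 0 ∧ aeval x P / aeval x Q ∈ F ∧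
      y * (aeval x (derivative P * Q - P * derivative Q) / aeval x Q ^ 2) / b ∈ F) :
    ∃ P Q : k[X], aeval x' Q ≠ 0 ∧
      aeval x' (derivative P * Q - P * derivative Q) ≠ 0 ∧ aeval x' P / aeval x' Q ∈ F ∧
      y * v ^ 3 * (aeval x' (derivative P * Q - P * derivative Q) / aeval x' Q ^ 2) /
        (b / A₁) ∈ F := by
  obtain ⟨P, Q, hQ, hW, hw, hf⟩ := hform
  obtain ⟨N, _, _, D, hDk, hDx⟩ := exists_der hxt
  have hDx' := h.der D hDk hDx
  obtain ⟨m, hm1, hm2⟩ : ∃ m : ℕ, P.natDegree < m + 1 ∧ Q.natDegree < m + 1 :=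
    ⟨max P.natDegree Q.natDegree, by omega, by omega⟩
  have hP' := h.sub P m hm1
  have hQ' := h.sub Q m hm2
  generalize hom P.coeff p₁ q₁ p₂ q₂ m = P' at hP'
  generalize hom Q.coeff p₁ q₁ p₂ q₂ m = Q' at hQ'
  have hvm := pow_ne_zero m h.v0
  have hQ'0 : aeval x' Q' ≠ 0 := by
    rw [hQ']
    exact mul_ne_zero hvm hQ
  have hww : aeval x' P' / aeval x' Q' = aeval x P / aeval x Q := by
    rw [hP', hQ', mul_div_mul_left _ _ hvm]
  have hgen : ∀ (z c : K) (A B : k[X]), aeval z B ≠ 0 →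
      D (algebraMap K N z) = algebraMap K N c →
      D (algebraMap K N (aeval z A / aeval z B)) =
        algebraMap K N
          (aeval z (derivative A * B - A * derivative B) / aeval z B ^ 2 * c) := by
    intro z c A B hB hz
    have hB' : algebraMap K N (aeval z B) ≠ 0 := fun h0 => hB ((map_eq_zero _).1 h0)
    have e1 := der_aeval D hDk A z
    have e2 := der_aeval D hDk B z
    rw [map_div₀, der_div D hB', e1, e2, hz]
    simp only [map_mul, map_div₀, map_pow, map_sub]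
    ring
  have hD1 := hgen x 1 P Q hQ (by rw [hDx, map_one])
  have hD2' := hgen x' ((δ : K) / A₁ ^ 2) P' Q' hQ'0 hDx'
  rw [hww, hD1] at hD2'
  have hD2 := (algebraMap K N).injective hD2'
  rw [mul_one] at hD2
  have n1 := h.n₁
  have d0 := h.hδ0
  have hkey : aeval x' (derivative P' * Q' - P' * derivative Q') / aeval x' Q' ^ 2 =
      aeval x (derivative P * Q - P * derivative Q) / aeval x Q ^ 2 * (A₁ ^ 2 / (δ : K)) := by
    rw [hD2, mul_assoc]
    have h3 : (δ : K) / A₁ ^ 2 * (A₁ ^ 2 / δ) = 1 := by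
      field_simp
    rw [h3, mul_one]
  have hne : aeval x (derivative P * Q - P * derivative Q) / aeval x Q ^ 2 *
      (A₁ ^ 2 / (δ : K)) ≠ 0 :=
    mul_ne_zero (div_ne_zero hW (pow_ne_zero 2 hQ)) (div_ne_zero (pow_ne_zero 2 n1) d0)
  refine ⟨P', Q', hQ'0, ?_, ?_, ?_⟩
  · intro h0
    rw [h0, zero_div] at hkey
    exact hne hkey.symm
  · rw [hww]
    exact hw
  · rw [hkey]
    have h4 : v = -(δ : K) / A₁ := by
      rw [eq_div_iff n1]
      exact h.vA
    have h3 : y * v ^ 3 * (aeval x (derivative P * Q - P * derivative Q) / aeval x Q ^ 2 *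
        (A₁ ^ 2 / (δ : K))) / (b / A₁) = -(δ : K) ^ 2 *
        (y * (aeval x (derivative P * Q - P * derivative Q) / aeval x Q ^ 2) / b) := by
      rw [h4]
      generalize aeval x (derivative P * Q - P * derivative Q) / aeval x Q ^ 2 = W
      field_simp
    rw [h3]
    exact F.mul_mem (F.neg_mem (pow_mem (hkF δ.2) 2)) hf

end

section

variable {K : Type} [Field K] [Algebra ℂ K]

theorem Change.pencil {l x y : K} {f : (IntermediateField.adjoin ℂ {l})[X]} (h : Pencil l x y f)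
    {A₁ A₂ x' v : K} {p₁ q₁ p₂ q₂ δ : IntermediateField.adjoin ℂ {l}}
    (c : Change (IntermediateField.adjoin ℂ {l}) x A₁ A₂ x' v p₁ q₁ p₂ q₂ δ)
    (hd : p₁ * q₂ - q₁ * p₂ ≠ 0) :
    Pencil l x' (y * v ^ 3) (hom f.coeff p₁ q₁ p₂ q₂ 6) := by
  haveI : CharZero (IntermediateField.adjoin ℂ ({l} : Set K)) :=
    charZero_of_injective_algebraMap (algebraMap ℂ _).injective
  haveI : Infinite (IntermediateField.adjoin ℂ ({l} : Set K)) := inferInstance
  obtain ⟨ht, hxt⟩ := (pair_iff l x).1 h.ind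
  refine ⟨?_, (hom_separable f h.six h.five h.sep hd).squarefree,
    hom_five f h.six h.five h.sqf hd, natDegree_hom_le _ _ _ _ _ _, ?_, ?_⟩
  · rw [pair_iff]
    exact ⟨ht, c.transc hxt⟩
  · rw [c.sub f 6 (by have := h.six; omega), mul_pow, h.eq]
    ring
  · rw [eq_top_iff, ← h.top, IntermediateField.adjoin_le_iff]
    set T := IntermediateField.adjoin ℂ ({l, x', y * v ^ 3} : Set K) with hT
    have hl : l ∈ T := IntermediateField.subset_adjoin _ _ (Or.inl rfl)
    have hx'T : x' ∈ T := IntermediateField.subset_adjoin _ _ (Or.inr (Or.inl rfl))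
    have hyT : y * v ^ 3 ∈ T := IntermediateField.subset_adjoin _ _ (Or.inr (Or.inr rfl))
    have hkT : IntermediateField.adjoin ℂ {l} ≤ T := by
      rw [IntermediateField.adjoin_le_iff]
      rintro _ rfl
      exact hl
    obtain ⟨hvT, hxT⟩ := c.mem T hkT hx'T
    rintro z (rfl | rfl | rfl)
    · exact hl
    · exact hxT
    · have h3 : z = z * v ^ 3 / v ^ 3 := by
        rw [mul_div_cancel_right₀ _ (pow_ne_zero 3 c.v0)]
      rw [h3]
      exact T.div_mem hyT (pow_mem hvT 3)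

/-- **Pencils of curves of genus two with split Jacobian.** -/
theorem general {l x y : K} {f : (IntermediateField.adjoin ℂ {l})[X]} (h : Pencil l x y f)
    (F₁ F₂ : IntermediateField ℂ K) {n₁ n₂ : ℕ} {a₁ a₂ : (IntermediateField.adjoin ℂ {l})[X]}
    (h₁ : RationalQuotient l x y F₁ n₁ a₁) (h₂ : RationalQuotient l x y F₂ n₂ a₂)
    (heven : Even (n₁ + n₂)) (ha₁ : a₁.natDegree ≤ 1) (ha₂ : a₂.natDegree ≤ 1)
    (hd : a₁.coeff 0 * a₂.coeff 1 - a₁.coeff 1 * a₂.coeff 0 ≠ 0)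
    (htr₁ : Algebra.trace F₁ K (aeval x a₂ / aeval x a₁) = 0)
    (htr₂ : Algebra.trace F₂ K (aeval x a₁ / aeval x a₂) = 0)
    (K₀ : Type) [Field K₀] [Algebra ℂ K₀] (e : K₀ →ₐ[ℂ] K) : TorsionPoints 2 K₀ := by
  obtain ⟨ht, hxt⟩ := (pair_iff l x).1 h.ind
  have z₁ : a₁ ≠ 0 := by
    rintro rfl
    simp at hd
  have z₂ : a₂ ≠ 0 := by
    rintro rfl
    simp at hd
  have n₁0 := lin_ne hxt z₁
  have n₂0 := lin_ne hxt z₂
  have c : Change (IntermediateField.adjoin ℂ {l}) x (aeval x a₁) (aeval x a₂)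
      (aeval x a₂ / aeval x a₁)
      ((a₁.coeff 1 : K) * (aeval x a₂ / aeval x a₁) - (a₂.coeff 1 : K)) (a₁.coeff 0) (a₁.coeff 1)
      (a₂.coeff 0) (a₂.coeff 1) (a₁.coeff 0 * a₂.coeff 1 - a₁.coeff 1 * a₂.coeff 0) := by
    refine ⟨lin_eq ha₁, lin_eq ha₂, n₁0, n₂0, ?_, ?_, rfl, rfl⟩
    · push_cast
      ring
    · intro h0
      exact hd (Subtype.ext h0)
  have hpen := c.pencil h hd
  have hk : ∀ F : IntermediateField ℂ K, l ∈ F → IntermediateField.adjoin ℂ {l} ≤ F := by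
    intro F hl
    rw [IntermediateField.adjoin_le_iff]
    rintro _ rfl
    exact hl
  have gen : ∀ (F : IntermediateField ℂ K), l ∈ F → F ⊔ IntermediateField.adjoin ℂ {x} = ⊤ →
      F ⊔ IntermediateField.adjoin ℂ {aeval x a₂ / aeval x a₁} = ⊤ := by
    intro F hl hF
    rw [eq_top_iff, ← hF]
    refine sup_le le_sup_left ?_
    rw [IntermediateField.adjoin_simple_le_iff]
    exact (c.mem _ ((hk F hl).trans le_sup_left)
      ((le_sup_right : IntermediateField.adjoin ℂ {aeval x a₂ / aeval x a₁} ≤ _)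
        (IntermediateField.mem_adjoin_simple_self ℂ _))).2
  obtain ⟨P₁, Q₁, b1, b2, b3, b4⟩ := c.quot hxt y F₁ (hk F₁ h₁.mem) _ n₁0 h₁.form
  obtain ⟨P₂, Q₂, c1, c2, c3, c4⟩ := c.quot hxt y F₂ (hk F₂ h₂.mem) _ n₂0 h₂.form
  rw [div_self n₁0, div_one] at b4
  refine split_sub hpen F₁ F₂ h₁.rational h₂.rational h₁.mem h₂.mem (gen F₁ h₁.mem h₁.gen)
    (gen F₂ h₂.mem h₂.gen) h₁.degree h₂.degree h₁.two h₂.two heven P₁ Q₁ P₂ Q₂ b1 c1 b2 c2 b3 c3
    b4 c4 htr₁ ?_ K₀ e
  rw [inv_div]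
  exact htr₂

/-- integrally, for double covers of rational varieties -/
theorem general_one {l x y : K} {f : (IntermediateField.adjoin ℂ {l})[X]} (h : Pencil l x y f)
    (F₁ F₂ : IntermediateField ℂ K) {n₁ n₂ : ℕ} {a₁ a₂ : (IntermediateField.adjoin ℂ {l})[X]}
    (h₁ : RationalQuotient l x y F₁ n₁ a₁) (h₂ : RationalQuotient l x y F₂ n₂ a₂)
    (heven : Even (n₁ + n₂)) (ha₁ : a₁.natDegree ≤ 1) (ha₂ : a₂.natDegree ≤ 1)
    (hd : a₁.coeff 0 * a₂.coeff 1 - a₁.coeff 1 * a₂.coeff 0 ≠ 0)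
    (htr₁ : Algebra.trace F₁ K (aeval x a₂ / aeval x a₁) = 0)
    (htr₂ : Algebra.trace F₂ K (aeval x a₁ / aeval x a₂) = 0)
    (K₀ : Type) [Field K₀] [Algebra ℂ K₀] (e : K₀ →ₐ[ℂ] K) (hK₀ : IsDouble K₀) :
    PointsEquivalent K₀ := by
  intro S _ g _ hg u v
  refine one_of_pow_two g hg hK₀ 1 ?_ u v
  intro u v
  rw [pow_one]
  exact general h F₁ F₂ h₁ h₂ heven ha₁ ha₂ hd htr₁ htr₂ K₀ e S g hg u v

end

end Vale.Agent.P297.H697
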