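import Vale.Agent.P297.Gen.Main
import Vale.Agent.P297.H516.SplitDefs

/-!
Zero-cycles on all varieties dominated by a pencil of curves of genus two with split Jacobian.
-/

set_option linter.unusedSectionVars false
set_option linter.style.haveILetI false

open CategoryTheory AlgebraicGeometry IntermediateField Polynomial

namespace Vale.Agent.P297.H697

open Vale.Agent.P297 Vale.Agent.P297.H839 Vale.Agent.P297.H516 Vale.Agent.P297.H878
  Vale.Agent.P297.Gen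

/-- **The assembly.** -/
theorem asm_sub {K N : Type} [Field K] [Algebra ℂ K] [Field N] [Algebra ℂ N] [IsAlgClosed N]
    {l x y : K} {f : (IntermediateField.adjoin ℂ {l})[X]} (h : Pencil l x y f)
    (h3 : Algebra.trdeg ℂ N ≤ 3) (lam : IntermediateField.adjoin ℂ {l} →ₐ[ℂ] N)
    (L : IntermediateField ℂ N) (hlamL : ∀ e, lam e ∈ L)
    (hLw : ∀ w, w ∉ L → AlgebraicIndependent ℂ
      ![lam ⟨l, IntermediateField.mem_adjoin_simple_self ℂ l⟩, w])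
    {n₁ n₂ m : ℕ} (σ : Fin n₁ ⊕ Fin n₂ → (K →ₐ[ℂ] N))
    (hσ : ∀ i (e : IntermediateField.adjoin ℂ {l}), σ i e = lam e)
    (hS : Sys L (f.map lam.toRingHom) n₁ n₂ m (fun i => σ i x) (fun i => σ i y))
    (F₁ F₂ : IntermediateField ℂ K) (hr₁ : IsRational F₁) (hr₂ : IsRational F₂)
    (hx₁ : F₁ ⊔ IntermediateField.adjoin ℂ {x} = ⊤) (hx₂ : F₂ ⊔ IntermediateField.adjoin ℂ {x} = ⊤)
    (hF₁ : Module.finrank F₁ K = n₁) (hF₂ : Module.finrank F₂ K = n₂)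
    (hagree₁ : ∀ i j, ∀ k ∈ F₁, σ (Sum.inl i) k = σ (Sum.inl j) k)
    (hagree₂ : ∀ i j, ∀ k ∈ F₂, σ (Sum.inr i) k = σ (Sum.inr j) k) (K₀ : Type) [Field K₀]
    [Algebra ℂ K₀] (e : K₀ →ₐ[ℂ] K) : TorsionPoints 2 K₀ := by
  obtain ⟨α, β, c, zA, zB, hdα, hdβ, hc, hn, hv, hβ, hβA, hβB, hAz, hBz, hAB, hBA⟩ := hS.core
  have hzA : zA ∉ L := fun h0 => hBA (Cl.of_L h0)
  have hzB : zB ∉ L := fun h0 => hAB (Cl.of_L h0)
  have hroot : ∀ z, (z = zA ∨ z = zB) →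
      (α ^ 2 - β ^ 2 * f.map lam.toRingHom).eval z = 0 := by
    intro z hz
    rw [hn]
    rcases hz with rfl | rfl <;> simp
  have hpt : ∀ z, (z = zA ∨ z = zB) → β.eval z ≠ 0 →
      (-(α.eval z / β.eval z)) ^ 2 = (f.map lam.toRingHom).eval z := by
    intro z hz hb
    have h1 := hroot z hz
    rw [eval_sub, eval_mul, eval_pow, eval_pow] at h1
    rw [neg_sq, div_pow, div_eq_iff (pow_ne_zero 2 hb)]
    linear_combination h1
  obtain ⟨φA, hAlam, hAx, hAy⟩ := h.emb lam (hLw zA hzA) (hpt zA (Or.inl rfl) hβA)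
  obtain ⟨φB, hBlam, hBx, hBy⟩ := h.emb lam (hLw zB hzB) (hpt zB (Or.inr rfl) hβB)
  have key : ∀ {S : Scheme.{0}} {g : S ⟶ Spec (.of ℂ)} [IsProper g] {C : Type} [CommRing C]
      [Algebra ℂ C] [Algebra.FiniteType ℂ C] {j : Spec (.of C) ⟶ S}
      {hj : j ≫ g = Spec.map (CommRingCat.ofHom (algebraMap ℂ C))} (ι : C →ₐ[ℂ] K),
      Finsupp.single (φA.comp ι) (2 : ℤ) ∈ Good g j hj (Rat g) N := by
    intro S g _ C _ _ _ j hj ι
    refine asm_two (g := g) (j := j) (hj := hj) h h3 lam L hlamL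
      (by have := hS.two₁; omega) (by have := hS.two₂; omega) σ hσ F₁ F₂ hr₁ hr₂ hx₁ hx₂ hF₁ hF₂
      hagree₁ hagree₂ hS.inj hdα hdβ hc φA φB hAlam hBlam ?_ hv ?_ ?_ hβ ?_ ?_ ?_ ?_ ?_ ?_ ι
    · rw [hAx, hBx]
      exact hn
    · rw [hAx, hAy]
      field_simp
      ring
    · rw [hBx, hBy]
      field_simp
      ring
    · rw [hAx]
      exact hβA
    · rw [hBx]
      exact hβB
    · intro i
      rw [hAx]
      exact hAz i
    · intro i
      rw [hBx]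
      exact hBz i
    · rw [hAx, hBx]
      rintro rfl
      exact hAB (Cl.of_mem rfl)
    · rw [hAx, hBx]
      exact hAB
  intro S _ g _ hg u v
  obtain ⟨U, hU, hne, hi⟩ := exists_chart g hg
  letI := chartAlg g hU
  haveI := chart_finiteType g hU
  obtain ⟨i, hi, hfrac⟩ := hi
  exact global_of_good' g hU (2 : ℤ) (Rat g) le_rfl (φA.comp (e.comp i))
    (φA.toRingHom.injective.comp (e.toRingHom.injective.comp hi))
    (key (g := g) (j := hU.fromSpec) (hj := chart_hj g hU) (e.comp i)) u v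

/-- **Zero-cycles on pencils of curves of genus two with split Jacobian.** -/
theorem split_sub {K : Type} [Field K] [Algebra ℂ K] {l x y : K}
    {f : (IntermediateField.adjoin ℂ {l})[X]} (h : Pencil l x y f) (F₁ F₂ : IntermediateField ℂ K)
    (hr₁ : IsRational F₁) (hr₂ : IsRational F₂) (hl₁ : l ∈ F₁) (hl₂ : l ∈ F₂)
    (hx₁ : F₁ ⊔ IntermediateField.adjoin ℂ {x} = ⊤)
    (hx₂ : F₂ ⊔ IntermediateField.adjoin ℂ {x} = ⊤) {n₁ n₂ : ℕ}
    (hn₁ : Module.finrank F₁ K = n₁) (hn₂ : Module.finrank F₂ K = n₂) (two₁ : 2 ≤ n₁)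
    (two₂ : 2 ≤ n₂) (heven : Even (n₁ + n₂))
    (P₁ Q₁ P₂ Q₂ : (IntermediateField.adjoin ℂ {l})[X]) (hQ₁ : aeval x Q₁ ≠ 0)
    (hQ₂ : aeval x Q₂ ≠ 0)
    (hJ₁ : aeval x (derivative P₁ * Q₁ - P₁ * derivative Q₁) ≠ 0)
    (hJ₂ : aeval x (derivative P₂ * Q₂ - P₂ * derivative Q₂) ≠ 0)
    (hw₁ : aeval x P₁ / aeval x Q₁ ∈ F₁) (hw₂ : aeval x P₂ / aeval x Q₂ ∈ F₂)
    (hv₁ : y * (aeval x (derivative P₁ * Q₁ - P₁ * derivative Q₁) / aeval x Q₁ ^ 2) ∈ F₁)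
    (hv₂ : y * (aeval x (derivative P₂ * Q₂ - P₂ * derivative Q₂) / aeval x Q₂ ^ 2) / x ∈ F₂)
    (htr₁ : Algebra.trace F₁ K x = 0) (htr₂ : Algebra.trace F₂ K x⁻¹ = 0) (K₀ : Type) [Field K₀]
    [Algebra ℂ K₀] (e₀ : K₀ →ₐ[ℂ] K) : TorsionPoints 2 K₀ := by
  obtain ⟨N, _, _, _, u, hu⟩ := exists_big
  obtain ⟨lam, hlam⟩ := exists_lam h hu
  set L := cl0 ({u 0} : Set N) with hL
  have hLc : ∀ a, IsAlgebraic L a → a ∈ L := cl0_closed _
  have hlamL : ∀ e, lam e ∈ L := lam_mem lam L (by rw [hlam]; exact subset_cl0 _ rfl)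
  obtain ⟨σ₁, f₁⟩ := exists_fam h hu lam hlam F₁ hl₁ hx₁ hn₁ (by omega) hu.one
  obtain ⟨σ₂, f₂⟩ := exists_fam h hu lam hlam F₂ hl₂ hx₂ hn₂ (by omega) hu.two'
  obtain ⟨m, hm⟩ := heven
  let σ : Fin n₁ ⊕ Fin n₂ → (K →ₐ[ℂ] N) := Sum.elim σ₁ σ₂
  have hbase : ∀ i (e : IntermediateField.adjoin ℂ {l}), σ i e = lam e := by
    rintro (i | i) e
    · exact f₁.base i e
    · exact f₂.base i e
  -- closed subfields
  let M₁ := clo L {u 1}
  let M₂ := clo L {u 2}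
  have hM₁ : ∀ a, IsAlgebraic M₁ a → a ∈ M₁ := clo_closed _ _
  have hM₂ : ∀ a, IsAlgebraic M₂ a → a ∈ M₂ := clo_closed _ _
  have hu1 : u 1 ∈ M₁ := subset_clo _ _ rfl
  have hu2 : u 2 ∈ M₂ := subset_clo _ _ rfl
  have hu12 : u 1 ∉ M₂ := hu.one'
  have hu21 : u 2 ∉ M₁ := hu.two
  have a1 : ∀ i, σ₁ i x ∈ M₁ := fun i => f₁.up i M₁ hM₁ (le_clo _ _) hu1
  have a2 : ∀ i, σ₂ i x ∈ M₂ := fun i => f₂.up i M₂ hM₂ (le_clo _ _) hu2
  have b1 : ∀ i, σ₁ i x ∉ M₂ := fun i hi => hu12 (f₁.down i M₂ hM₂ (le_clo _ _) hi)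
  have b2 : ∀ i, σ₂ i x ∉ M₁ := fun i hi => hu21 (f₂.down i M₁ hM₁ (le_clo _ _) hi)
  have hinj : Function.Injective fun i => σ i x := by
    rintro (i | i) (j | j) hij
    · exact congrArg Sum.inl (f₁.inj hij)
    · exact absurd (show σ₂ j x ∈ M₁ from (show σ₁ i x = σ₂ j x from hij) ▸ a1 i) (b2 j)
    · exact absurd (show σ₂ i x ∈ M₁ from (show σ₂ i x = σ₁ j x from hij) ▸ a1 j) (b2 i)
    · exact congrArg Sum.inr (f₂.inj hij)
  have hnotL : ∀ i, σ i x ∉ L := by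
    rintro (i | i) hi
    · exact b1 i (le_clo _ _ hi)
    · exact b2 i (le_clo _ _ hi)
  have hfull : ∀ {a b : N}, a ∉ L → b ∉ clo L {a} → ∀ M : IntermediateField ℂ N,
      (∀ v, IsAlgebraic M v → v ∈ M) → L ≤ M → a ∈ M → b ∈ M → ∀ v, v ∈ M :=
    fun haL hab M hM hLM ha hb v => hu.full hM hLM ha hb haL hab v
  have halg₁ : ∀ i (a : N), IsAlgebraic (IntermediateField.adjoin M₂ {σ₁ i x}) a := by
    intro i a
    rw [← mem_clo]
    exact hfull hu.two' (b1 i) (clo M₂ {σ₁ i x}) (clo_closed _ _) ((le_clo _ _).trans (le_clo _ _))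
      (le_clo _ _ hu2) (subset_clo _ _ (Set.mem_singleton _)) a
  have halg₂ : ∀ i (a : N), IsAlgebraic (IntermediateField.adjoin M₁ {σ₂ i x}) a := by
    intro i a
    rw [← mem_clo]
    exact hfull hu.one (b2 i) (clo M₁ {σ₂ i x}) (clo_closed _ _) ((le_clo _ _).trans (le_clo _ _))
      (le_clo _ _ hu1) (subset_clo _ _ (Set.mem_singleton _)) a
  have hmem : ∀ (M : IntermediateField ℂ N) (_ : ∀ a, IsAlgebraic M a → a ∈ M) (_ : L ≤ M)
      (i : Fin n₁ ⊕ Fin n₂), σ i x ∈ M → ∀ k, σ i k ∈ M := by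
    intro M hM hLM i hi k
    refine h.range_mem hM ?_ hi k
    have e1 := hbase i ⟨l, IntermediateField.mem_adjoin_simple_self ℂ l⟩
    change σ i l = _ at e1
    rw [e1]
    exact hLM (hlamL _)
  have hS : Sys L (f.map lam.toRingHom) n₁ n₂ m (fun i => σ i x) (fun i => σ i y) := by
    refine ⟨?_, h.sep.map (f := lam.toRingHom), ?_, ?_, ?_, two₁, two₂, hinj, ?_, hnotL, ?_, ?_,
      ?_, ?_⟩
    · intro n
      rw [coeff_map]
      exact hlamL _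
    · rw [natDegree_map]
      exact h.five
    · rw [natDegree_map]
      exact h.six
    · omega
    · intro i
      rw [← map_pow, h.eq, Polynomial.eval_map, Polynomial.aeval_def]
      refine (Polynomial.hom_eval₂ f _ (σ i).toRingHom x).trans ?_
      congr 1
      exact RingHom.ext fun r => hbase i r
    · intro α β Q hQ0 hV hN i M hM hLM hQ
      exact dom_fam h lam L hlamL (by omega) (by omega) σ hbase hinj hnotL F₁ F₂ hn₁ hn₂
        (fun i j => f₁.agree i j) (fun i j => f₂.agree i j) P₁ Q₁ P₂ Q₂ hQ₁ hQ₂ hJ₁ hJ₂ hw₁ hw₂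
        hv₁ hv₂ htr₁ htr₂ α β Q hQ0 hV hN M hM hLM hQ i
    · intro v
      by_contra hcon
      push Not at hcon
      have hv : ∀ i, σ i x ∈ clo L {v} := fun i => cl_iff.1 (hcon i)
      have c1 : u 1 ∈ clo L {v} :=
        f₁.down ⟨0, by omega⟩ _ (clo_closed _ _) (le_clo _ _) (hv (Sum.inl ⟨0, by omega⟩))
      have c2 : u 2 ∈ clo L {v} :=
        f₂.down ⟨0, by omega⟩ _ (clo_closed _ _) (le_clo _ _) (hv (Sum.inr ⟨0, by omega⟩))
      have c3 : v ∈ M₁ := exchange hLc c1 hu.one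
      exact hu21 (clo_le hM₁ (le_clo _ _) (by rintro _ rfl; exact c3) c2)
    · rintro (i | i) (j | j) hij M hM hLM hi
      · exact f₁.up j M hM hLM (f₁.down i M hM hLM (hi rfl))
      · simp at hij
      · simp at hij
      · exact f₂.up j M hM hLM (f₂.down i M hM hLM (hi rfl))
    · rintro (i | i) (j | j) hij hne
      · obtain ⟨g, hg, hgx, π, hπ⟩ := f₁.aut h hlamL hM₂ (le_clo _ _) b1 halg₁ i j
        refine ⟨g, fun a ha => hg a (le_clo _ _ ha), hgx, Equiv.sumCongr π (Equiv.refl _), ?_⟩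
        rintro (k | k)
        · exact hπ k
        · have e1 := hmem M₂ hM₂ (le_clo _ _) (Sum.inr k) (a2 k)
          exact ⟨hg _ (e1 x), hg _ (e1 y)⟩
      · simp at hij
      · simp at hij
      · obtain ⟨g, hg, hgx, π, hπ⟩ := f₂.aut h hlamL hM₁ (le_clo _ _) b2 halg₂ i j
        refine ⟨g, fun a ha => hg a (le_clo _ _ ha), hgx, Equiv.sumCongr (Equiv.refl _) π, ?_⟩
        rintro (k | k)
        · have e1 := hmem M₁ hM₁ (le_clo _ _) (Sum.inl k) (a1 k)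
          exact ⟨hg _ (e1 x), hg _ (e1 y)⟩
        · exact hπ k
  exact asm_sub h hu.trdeg lam L hlamL (fun w hw => by rw [hlam]; exact hu.indep hw) σ hbase hS F₁ F₂
    hr₁ hr₂ hx₁ hx₂ hn₁ hn₂ (fun i j => f₁.agree i j) (fun i j => f₂.agree i j) K₀ e₀

end Vale.Agent.P297.H697
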